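import Vale.Agent.N074.Main

open MeasureTheory Set
open scoped ENNReal NNReal

namespace Vale.Agent.Results.P074.A0RoughSources

open Vale.Agent.P074 Vale.Agent.N074

/-- For every `d ≥ 2` there are (1) densities on the unit cube arbitrarily close to `1` in the
uniform norm, and (2) compact path-connected subsets of the unit cube of almost full volume (with
their uniform measure), for which the largest stability exponent is exactly `1/4`, for every compact
`Y` with interior points and every `W_p`, `p ≥ 1`. -/
theorem result (d : ℕ) (hd : 2 ≤ d) :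
    (∀ ε : ℝ, 0 < ε → ∃ σ : E d → ℝ, Measurable σ ∧ (∀ x, |σ x - 1| ≤ ε) ∧
      SharpExponent ((unif (cube d)).withDensity fun x => ENNReal.ofReal (σ x)) (1 / 4)) ∧
    (∀ ε : ℝ, 0 < ε → ∃ K : Set (E d), IsCompact K ∧ IsPathConnected K ∧ (interior K).Nonempty ∧
      K ⊆ cube d ∧ volume (cube d \ K) ≤ ENNReal.ofReal ε ∧ SharpExponent (unif K) (1 / 4)) :=
  (main d hd).2

end Vale.Agent.Results.P074.A0RoughSources
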